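import Vale.Agent.P327.MathlibUsed

/-!
Definitions for the statement of P327: the Turing degrees of sets of natural numbers.
-/

namespace Vale.Agent.P327

open Classical in
/-- The characteristic function of a set of natural numbers. -/
noncomputable def charFn (A : Set ℕ) : ℕ →. ℕ := fun n => Part.some (if n ∈ A then 1 else 0)

/-- Sets of natural numbers, preordered by Turing reducibility. -/
structure SetN where
  carrier : Set ℕ

/-- `A ≤ B` : the characteristic function of `A` is recursive in that of `B`. -/
instance : Preorder SetN where
  le A B := TuringReducible (charFn A.carrier) (charFn B.carrier)
  le_refl A := TuringReducible.refl _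
  le_trans _ _ _ h h' := TuringReducible.trans h h'

/-- The Turing degrees: sets of natural numbers modulo Turing equivalence, ordered by Turing
reducibility. -/
abbrev TDeg : Type := Antisymmetrization SetN (· ≤ ·)

end Vale.Agent.P327
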