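import Mathlib.Algebra.Ring.BooleanRing
import Mathlib.Computability.Reduce
import Mathlib.Computability.TuringDegree
import Mathlib.Data.List.GetD
import Mathlib.MeasureTheory.Constructions.Polish.Basic
import Mathlib.RingTheory.DedekindDomain.SInteger
import Mathlib.Tactic
import Mathlib.Topology.Baire.BaireMeasurable
import Mathlib.Topology.Baire.LocallyCompactRegular
import Mathlib.Topology.Filter
import Mathlib.Topology.UniformSpace.Uniformizable

/-! The part of Mathlib that the development of this folder uses. -/
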